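import Vale.Agent.P313.R2.H284.Main
import Vale.Agent.P313.R2.H814.FewW

/-!
Deterministic zero tests of integer polynomials in the acceptance probabilities of randomized
logarithmic-space machines, with simultaneous bounds for time and space. `small κ x` is the
number `2 ^ (- κ(n) log n)`, `point κ M c x` evaluates the variable `none` at this number and the
variable `some i` at the acceptance probability of the machine `M i` on the input `x`.
Clauses (6), (7), (8) are (1), (3), (5) for machines which use at most `2 ^ lam` random bits, with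
a smaller bound for the space.
-/

namespace Vale.Agent.Results.P313.PolynomialTests

open Vale.Agent.P313

theorem result :
    -- (1) the sign of a polynomial: at least `n ^ (- e κ)`, or at most zero
    (∀ (κ : ℕ → ℕ), LogConstructible κ → (∀ n, 1 ≤ κ n) →
      ∀ (k : ℕ) (M : Fin k → RTM) (c : Fin k → ℕ),
        (∀ i, (M i).Bounded (fun n => (n + 2) ^ c i) (fun n => c i * Nat.log 2 (n + 2))) →
        ∀ (P : MvPolynomial (Option (Fin k)) ℤ) (e : ℕ),
        ∃ A : Set (List Bool),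
          DTISP (fun n => (n + 2) ^ κ n)
            (fun n => Nat.log 2 (n + 2) ^ 2 / (κ n * (Nat.log 2 (κ n) + 1)) +
              κ n * Nat.log 2 (n + 2)) A ∧
          ∀ x : List Bool,
            (1 / ((x.length : ℚ) + 2) ^ (e * κ x.length) ≤
              MvPolynomial.aeval (PT.point κ M c x) P → x ∈ A) ∧
            (MvPolynomial.aeval (PT.point κ M c x) P ≤ 0 → x ∉ A)) ∧
    -- (2) the same with real exponents
    (∀ (a b : ℕ), 0 < a → 2 * a < b →
      ∀ (k : ℕ) (M : Fin k → RTM) (c : Fin k → ℕ),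
        (∀ i, (M i).Bounded (fun n => (n + 2) ^ c i) (fun n => c i * Nat.log 2 (n + 2))) →
        ∀ (P : MvPolynomial (Fin k) ℤ) (e : ℕ),
        ∃ A : Set (List Bool),
          (∃ (D : RTM) (C : ℝ), D.Decides A
            (fun n => 2 ^ (C * Real.logb 2 (n + 2) ^ (1 + (a : ℝ) / b)))
            (fun n => C * Real.logb 2 (n + 2) ^ (2 - (a : ℝ) / b) /
              Real.logb 2 (Real.logb 2 (n + 2) + 1))) ∧
          ∀ x : List Bool,
            (2 ^ (-(e * Real.logb 2 ((x.length : ℝ) + 2) ^ (1 + (a : ℝ) / b))) ≤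
              ((MvPolynomial.aeval (fun i =>
                (M i).probAt x true ((x.length + 2) ^ c i) 0 (M i).init) P : ℚ) : ℝ) → x ∈ A) ∧
            (MvPolynomial.aeval (fun i =>
                (M i).probAt x true ((x.length + 2) ^ c i) 0 (M i).init) P ≤ 0 → x ∉ A)) ∧
    -- (3) one-sided machines with success probability at least `n ^ (- e κ)`
    (∀ (κ : ℕ → ℕ), LogConstructible κ → (∀ n, 1 ≤ κ n) →
      ∀ (M : RTM) (c e : ℕ), M.Bounded (fun n => (n + 2) ^ c) (fun n => c * Nat.log 2 (n + 2)) →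
      ∀ (A : Set (List Bool)),
        (∀ x : List Bool,
          (x ∈ A → 1 / ((x.length : ℚ) + 2) ^ (e * κ x.length) ≤
            M.probAt x true ((x.length + 2) ^ c) 0 M.init) ∧
          (x ∉ A → M.probAt x true ((x.length + 2) ^ c) 0 M.init = 0)) →
        DTISP (fun n => (n + 2) ^ κ n)
          (fun n => Nat.log 2 (n + 2) ^ 2 / (κ n * (Nat.log 2 (κ n) + 1)) +
            κ n * Nat.log 2 (n + 2)) A) ∧
    -- (4) the same with real exponents
    (∀ (a b : ℕ), 0 < a → 2 * a < b →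
      ∀ (M : RTM) (c e : ℕ), M.Bounded (fun n => (n + 2) ^ c) (fun n => c * Nat.log 2 (n + 2)) →
      ∀ (A : Set (List Bool)),
        (∀ x : List Bool,
          (x ∈ A → 2 ^ (-(e * Real.logb 2 ((x.length : ℝ) + 2) ^ (1 + (a : ℝ) / b))) ≤
            (M.probAt x true ((x.length + 2) ^ c) 0 M.init : ℝ)) ∧
          (x ∉ A → M.probAt x true ((x.length + 2) ^ c) 0 M.init = 0)) →
        ∃ (D : RTM) (C : ℝ), D.Decides A
          (fun n => 2 ^ (C * Real.logb 2 (n + 2) ^ (1 + (a : ℝ) / b)))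
          (fun n => C * Real.logb 2 (n + 2) ^ (2 - (a : ℝ) / b) /
            Real.logb 2 (Real.logb 2 (n + 2) + 1))) ∧
    -- (5) equality of two acceptance probabilities
    (∀ (κ : ℕ → ℕ), LogConstructible κ → (∀ n, 1 ≤ κ n) →
      ∀ (M₁ M₂ : RTM) (c₁ c₂ e : ℕ),
        M₁.Bounded (fun n => (n + 2) ^ c₁) (fun n => c₁ * Nat.log 2 (n + 2)) →
        M₂.Bounded (fun n => (n + 2) ^ c₂) (fun n => c₂ * Nat.log 2 (n + 2)) →
      ∀ (A : Set (List Bool)),
        (∀ x : List Bool,
          (x ∈ A → M₁.probAt x true ((x.length + 2) ^ c₁) 0 M₁.init =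
            M₂.probAt x true ((x.length + 2) ^ c₂) 0 M₂.init) ∧
          (x ∉ A → 1 / ((x.length : ℚ) + 2) ^ (e * κ x.length) ≤
            |M₁.probAt x true ((x.length + 2) ^ c₁) 0 M₁.init -
              M₂.probAt x true ((x.length + 2) ^ c₂) 0 M₂.init|)) →
        DTISP (fun n => (n + 2) ^ κ n)
          (fun n => Nat.log 2 (n + 2) ^ 2 / (κ n * (Nat.log 2 (κ n) + 1)) +
            κ n * Nat.log 2 (n + 2)) A) ∧
    -- (6) the sign of a polynomial, machines with at most `2 ^ lam` random bits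
    (∀ (κ lam : ℕ → ℕ), LogConstructible κ → LogConstructible lam → (∀ n, 1 ≤ κ n) →
      ∀ (k : ℕ) (M : Fin k → RTM) (c : Fin k → ℕ),
        (∀ i, (M i).Bounded (fun n => (n + 2) ^ c i) (fun n => c i * Nat.log 2 (n + 2))) →
        (∀ (i : Fin k) (x : List Bool) (v : Bool),
          (M i).probAt x v ((x.length + 2) ^ c i) (2 ^ lam x.length + 1) (M i).init = 0) →
        ∀ (P : MvPolynomial (Option (Fin k)) ℤ) (e : ℕ),
        ∃ A : Set (List Bool),
          DTISP (fun n => (n + 2) ^ κ n)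
            (fun n => Nat.log 2 (n + 2) * (κ n + Nat.log 2 (Nat.log 2 (n + 2)) +
              lam n / (κ n * (Nat.log 2 (κ n * (Nat.log 2 (n + 2) / lam n + 1)) + 1)))) A ∧
          ∀ x : List Bool,
            (1 / ((x.length : ℚ) + 2) ^ (e * κ x.length) ≤
              MvPolynomial.aeval (PT.point κ M c x) P → x ∈ A) ∧
            (MvPolynomial.aeval (PT.point κ M c x) P ≤ 0 → x ∉ A)) ∧
    -- (7) one-sided machines with small success probability and at most `2 ^ lam` random bits
    (∀ (κ lam : ℕ → ℕ), LogConstructible κ → LogConstructible lam → (∀ n, 1 ≤ κ n) →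
      ∀ (M : RTM) (c e : ℕ), M.Bounded (fun n => (n + 2) ^ c) (fun n => c * Nat.log 2 (n + 2)) →
        (∀ (x : List Bool) (v : Bool),
          M.probAt x v ((x.length + 2) ^ c) (2 ^ lam x.length + 1) M.init = 0) →
      ∀ (A : Set (List Bool)),
        (∀ x : List Bool,
          (x ∈ A → 1 / ((x.length : ℚ) + 2) ^ (e * κ x.length) ≤
            M.probAt x true ((x.length + 2) ^ c) 0 M.init) ∧
          (x ∉ A → M.probAt x true ((x.length + 2) ^ c) 0 M.init = 0)) →
        DTISP (fun n => (n + 2) ^ κ n)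
          (fun n => Nat.log 2 (n + 2) * (κ n + Nat.log 2 (Nat.log 2 (n + 2)) +
            lam n / (κ n * (Nat.log 2 (κ n * (Nat.log 2 (n + 2) / lam n + 1)) + 1)))) A) ∧
    -- (8) equality of two acceptance probabilities, machines with at most `2 ^ lam` random bits
    (∀ (κ lam : ℕ → ℕ), LogConstructible κ → LogConstructible lam → (∀ n, 1 ≤ κ n) →
      ∀ (M₁ M₂ : RTM) (c₁ c₂ e : ℕ),
        M₁.Bounded (fun n => (n + 2) ^ c₁) (fun n => c₁ * Nat.log 2 (n + 2)) →
        M₂.Bounded (fun n => (n + 2) ^ c₂) (fun n => c₂ * Nat.log 2 (n + 2)) →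
        (∀ (x : List Bool) (v : Bool),
          M₁.probAt x v ((x.length + 2) ^ c₁) (2 ^ lam x.length + 1) M₁.init = 0) →
        (∀ (x : List Bool) (v : Bool),
          M₂.probAt x v ((x.length + 2) ^ c₂) (2 ^ lam x.length + 1) M₂.init = 0) →
      ∀ (A : Set (List Bool)),
        (∀ x : List Bool,
          (x ∈ A → M₁.probAt x true ((x.length + 2) ^ c₁) 0 M₁.init =
            M₂.probAt x true ((x.length + 2) ^ c₂) 0 M₂.init) ∧
          (x ∉ A → 1 / ((x.length : ℚ) + 2) ^ (e * κ x.length) ≤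
            |M₁.probAt x true ((x.length + 2) ^ c₁) 0 M₁.init -
              M₂.probAt x true ((x.length + 2) ^ c₂) 0 M₂.init|)) →
        DTISP (fun n => (n + 2) ^ κ n)
          (fun n => Nat.log 2 (n + 2) * (κ n + Nat.log 2 (Nat.log 2 (n + 2)) +
            lam n / (κ n * (Nat.log 2 (κ n * (Nat.log 2 (n + 2) / lam n + 1)) + 1)))) A) :=
  ⟨fun _ hκ hκ1 _ M c hM P e => PT.dtisp_poly hκ hκ1 M c hM P e,
    fun a b ha hb _ M c hM P e => PT.dtisp_polyB a b ha hb M c hM P e,
    fun _ hκ hκ1 M c e hM A hA => PT.one_sided hκ hκ1 M c e hM A hA,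
    fun a b ha hb M c e hM A hA => PT.one_sidedB a b ha hb M c e hM A hA,
    fun _ hκ hκ1 M₁ M₂ c₁ c₂ e h1 h2 A hA =>
      PT.equality hκ hκ1 M₁ M₂ c₁ c₂ e h1 h2 A hA,
    fun _ _ hκ hl hκ1 _ M c hM hR P e => PW.dtisp_polyL hκ hl hκ1 M c hM hR P e,
    fun _ _ hκ hl hκ1 M c e hM hR A hA => PW.one_sidedL hκ hl hκ1 M c e hM hR A hA,
    fun _ _ hκ hl hκ1 M₁ M₂ c₁ c₂ e h1 h2 hR1 hR2 A hA =>
      PW.equalityL hκ hl hκ1 M₁ M₂ c₁ c₂ e h1 h2 hR1 hR2 A hA⟩

end Vale.Agent.Results.P313.PolynomialTests
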