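import Vale.Agent.P313.R2.H284.SavG

/-!
Deciding whether the acceptance probability of a randomized logarithmic-space machine is at least
`n ^ (- e 2 ^ κ)` or smaller than `n ^ (- d 2 ^ κ)`: simultaneous bounds for deterministic time
and space.
-/

namespace Vale.Agent.Results.P313.SmallSuccess

open Vale.Agent.P313

theorem result :
    -- (1) acceptance probability at least `n ^ (- e 2 ^ κ)`, or less than `n ^ (- d 2 ^ κ)`
    (∀ (κ : ℕ → ℕ), LogConstructible κ → (∀ n, 1 ≤ κ n) →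
      ∀ (M : RTM) (c e : ℕ), M.Bounded (fun n => (n + 2) ^ c) (fun n => c * Nat.log 2 (n + 2)) →
        ∃ (A : Set (List Bool)) (d : ℕ),
          DTISP (fun n => (n + 2) ^ κ n)
            (fun n => Nat.log 2 (n + 2) ^ 2 / (κ n * (Nat.log 2 (κ n) + 1)) +
              κ n * Nat.log 2 (n + 2)) A ∧
          ∀ x : List Bool,
            (1 / ((x.length : ℚ) + 2) ^ (e * 2 ^ κ x.length) ≤
              M.probAt x true ((x.length + 2) ^ c) 0 M.init → x ∈ A) ∧
            (M.probAt x true ((x.length + 2) ^ c) 0 M.init <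
              1 / ((x.length : ℚ) + 2) ^ (d * 2 ^ κ x.length) → x ∉ A)) ∧
    -- (2) real exponents: at least `2 ^ (- 2 ^ (e log ^ β n))`, or less than the same with `d`
    (∀ (a b : ℕ), 0 < a → 2 * a < b →
      ∀ (M : RTM) (c e : ℕ), M.Bounded (fun n => (n + 2) ^ c) (fun n => c * Nat.log 2 (n + 2)) →
        ∃ (A : Set (List Bool)) (d : ℕ),
          (∃ (D : RTM) (C : ℝ), D.Decides A
            (fun n => 2 ^ (C * Real.logb 2 (n + 2) ^ (1 + (a : ℝ) / b)))
            (fun n => C * Real.logb 2 (n + 2) ^ (2 - (a : ℝ) / b) /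
              Real.logb 2 (Real.logb 2 (n + 2) + 1))) ∧
          ∀ x : List Bool,
            (2 ^ (-((2 : ℝ) ^ (e * Real.logb 2 ((x.length : ℝ) + 2) ^ ((a : ℝ) / b)))) ≤
              (M.probAt x true ((x.length + 2) ^ c) 0 M.init : ℝ) → x ∈ A) ∧
            ((M.probAt x true ((x.length + 2) ^ c) 0 M.init : ℝ) <
              2 ^ (-((2 : ℝ) ^ (d * Real.logb 2 ((x.length : ℝ) + 2) ^ ((a : ℝ) / b)))) →
                x ∉ A)) ∧
    -- (3) the first statement for machines with at most `2 ^ lam` coins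
    (∀ (κ lam : ℕ → ℕ), LogConstructible κ → LogConstructible lam → (∀ n, 1 ≤ κ n) →
      ∀ (M : RTM) (c e : ℕ), M.Bounded (fun n => (n + 2) ^ c) (fun n => c * Nat.log 2 (n + 2)) →
        (∀ (x : List Bool) (v : Bool),
          M.probAt x v ((x.length + 2) ^ c) (2 ^ lam x.length + 1) M.init = 0) →
        ∃ (A : Set (List Bool)) (d : ℕ),
          DTISP (fun n => (n + 2) ^ κ n)
            (fun n => Nat.log 2 (n + 2) * (κ n + Nat.log 2 (Nat.log 2 (n + 2)) +
              lam n / (κ n * (Nat.log 2 (κ n * (Nat.log 2 (n + 2) / lam n + 1)) + 1)))) A ∧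
          ∀ x : List Bool,
            (1 / ((x.length : ℚ) + 2) ^ (e * 2 ^ κ x.length) ≤
              M.probAt x true ((x.length + 2) ^ c) 0 M.init → x ∈ A) ∧
            (M.probAt x true ((x.length + 2) ^ c) 0 M.init <
              1 / ((x.length : ℚ) + 2) ^ (d * 2 ^ κ x.length) → x ∉ A)) ∧
    -- (4) languages: one-sided machines, as in (1)
    (∀ (κ : ℕ → ℕ), LogConstructible κ → (∀ n, 1 ≤ κ n) →
      ∀ (M : RTM) (c e : ℕ), M.Bounded (fun n => (n + 2) ^ c) (fun n => c * Nat.log 2 (n + 2)) →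
      ∀ (A : Set (List Bool)),
        (∀ x : List Bool,
          (x ∈ A → 1 / ((x.length : ℚ) + 2) ^ (e * 2 ^ κ x.length) ≤
            M.probAt x true ((x.length + 2) ^ c) 0 M.init) ∧
          (x ∉ A → M.probAt x true ((x.length + 2) ^ c) 0 M.init = 0)) →
        DTISP (fun n => (n + 2) ^ κ n)
          (fun n => Nat.log 2 (n + 2) ^ 2 / (κ n * (Nat.log 2 (κ n) + 1)) +
            κ n * Nat.log 2 (n + 2)) A) ∧
    -- (5) languages: one-sided machines, as in (2)
    (∀ (a b : ℕ), 0 < a → 2 * a < b →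
      ∀ (M : RTM) (c e : ℕ), M.Bounded (fun n => (n + 2) ^ c) (fun n => c * Nat.log 2 (n + 2)) →
      ∀ (A : Set (List Bool)),
        (∀ x : List Bool,
          (x ∈ A → 2 ^ (-((2 : ℝ) ^ (e * Real.logb 2 ((x.length : ℝ) + 2) ^ ((a : ℝ) / b)))) ≤
            (M.probAt x true ((x.length + 2) ^ c) 0 M.init : ℝ)) ∧
          (x ∉ A → M.probAt x true ((x.length + 2) ^ c) 0 M.init = 0)) →
        ∃ (D : RTM) (C : ℝ), D.Decides A
          (fun n => 2 ^ (C * Real.logb 2 (n + 2) ^ (1 + (a : ℝ) / b)))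
          (fun n => C * Real.logb 2 (n + 2) ^ (2 - (a : ℝ) / b) /
            Real.logb 2 (Real.logb 2 (n + 2) + 1))) :=
  ⟨fun _ hκ hκ1 M c e hM => SV.small_sep hκ hκ1 M c e hM,
    fun a b ha hb M c e hM => SV.small_sepB a b ha hb M c e hM,
    fun _ _ hκ hl hκ1 M c e hM hR => SV.small_sepL hκ hl hκ1 M c e hM hR,
    fun _ hκ hκ1 M c e hM A hA => SV.small_lang hκ hκ1 M c e hM A hA,
    fun a b ha hb M c e hM A hA => SV.small_langB a b ha hb M c e hM A hA⟩

end Vale.Agent.Results.P313.SmallSuccess
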